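import Mathlib

namespace Vale.Agent.Lib.P110.H16

open Finset Polynomial

/-- Orthogonality of the powers of a primitive root of unity. -/
lemma geom_root (M : ℕ) (hM : 0 < M) (ζ : ℂ) (hζ : IsPrimitiveRoot ζ M) (s s' : ℕ)
    (hs : s < M) (hs' : s' < M) :
    ∑ t ∈ range M, (ζ ^ s * (starRingEnd ℂ ζ) ^ s') ^ t = if s = s' then (M : ℂ) else 0 := by
  have hnorm : ‖ζ‖ = 1 := hζ.norm'_eq_one hM.ne'
  have hconj : starRingEnd ℂ ζ = ζ⁻¹ := (Complex.inv_eq_conj hnorm).symm
  have hζ0 : ζ ≠ 0 := hζ.ne_zero hM.ne'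
  by_cases h : s = s'
  · subst h
    have h1 : ζ ^ s * (starRingEnd ℂ ζ) ^ s = 1 := by
      rw [hconj, ← mul_pow, mul_inv_cancel₀ hζ0, one_pow]
    simp [h1]
  · rw [if_neg h]
    set x : ℂ := ζ ^ s * (starRingEnd ℂ ζ) ^ s' with hx
    have hxM : x ^ M = 1 := by
      rw [hx, mul_pow, ← pow_mul, ← pow_mul, hconj, inv_pow, mul_comm s M, mul_comm s' M,
        pow_mul, pow_mul, hζ.pow_eq_one, one_pow, one_pow, inv_one, mul_one]
    have hx1 : x ≠ 1 := by
      intro hx1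
      have h2 : ζ ^ s = ζ ^ s' := by
        have h3 : ζ ^ s * (ζ⁻¹) ^ s' = 1 := by rw [← hconj]; exact hx1
        have h4 : ζ ^ s' ≠ 0 := pow_ne_zero _ hζ0
        rw [inv_pow] at h3
        field_simp at h3
        exact h3
      exact h (hζ.pow_inj hs hs' h2)
    rw [geom_sum_eq hx1, hxM, sub_self, zero_div]

/-- Parseval identity for a polynomial of degree less than `M` on the `M`-th roots of unity. -/
lemma parseval (G : ℂ[X]) (M : ℕ) (hM : G.natDegree < M) (ζ : ℂ) (hζ : IsPrimitiveRoot ζ M) :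
    ∑ t ∈ range M, ((Complex.normSq (G.eval (ζ ^ t)) : ℝ) : ℂ)
      = (M : ℂ) * ∑ s ∈ range M, ((Complex.normSq (G.coeff s) : ℝ) : ℂ) := by
  have hM0 : 0 < M := by omega
  have key : ∀ t ∈ range M, ((Complex.normSq (G.eval (ζ ^ t)) : ℝ) : ℂ)
      = ∑ s ∈ range M, ∑ s' ∈ range M,
          G.coeff s * (starRingEnd ℂ) (G.coeff s') * (ζ ^ s * (starRingEnd ℂ ζ) ^ s') ^ t := by
    intro t _
    rw [← Complex.mul_conj, Polynomial.eval_eq_sum_range' hM, map_sum, Finset.sum_mul_sum]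
    refine Finset.sum_congr rfl fun s _ => Finset.sum_congr rfl fun s' _ => ?_
    simp only [map_mul, map_pow]
    ring
  rw [Finset.sum_congr rfl key, Finset.sum_comm, Finset.mul_sum]
  refine Finset.sum_congr rfl fun s hs => ?_
  rw [Finset.sum_comm]
  have h2 : ∀ s' ∈ range M, ∑ t ∈ range M,
      G.coeff s * (starRingEnd ℂ) (G.coeff s') * (ζ ^ s * (starRingEnd ℂ ζ) ^ s') ^ t
        = if s = s' then G.coeff s * (starRingEnd ℂ) (G.coeff s') * (M : ℂ) else 0 := by
    intro s' hs'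
    rw [← Finset.mul_sum, geom_root M hM0 ζ hζ s s' (mem_range.mp hs) (mem_range.mp hs')]
    split_ifs <;> simp
  rw [Finset.sum_congr rfl h2, Finset.sum_ite_eq, if_pos hs, Complex.mul_conj]
  ring

/-- Averaging: some `M`-th root of unity carries at least the mean square of the coefficients. -/
lemma exists_root_large (G : ℂ[X]) (M : ℕ) (hM : G.natDegree < M) :
    ∃ z : ℂ, ‖z‖ = 1 ∧
      ∑ s ∈ range M, Complex.normSq (G.coeff s) ≤ Complex.normSq (G.eval z) := by
  have hM0 : 0 < M := by omega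
  have hζ : IsPrimitiveRoot (Complex.exp (2 * Real.pi * Complex.I / M)) M :=
    Complex.isPrimitiveRoot_exp M hM0.ne'
  set ζ : ℂ := Complex.exp (2 * Real.pi * Complex.I / M) with hζdef
  have hp := parseval G M hM ζ hζ
  have hreal : ∑ t ∈ range M, Complex.normSq (G.eval (ζ ^ t))
      = (M : ℝ) * ∑ s ∈ range M, Complex.normSq (G.coeff s) := by
    have : ((∑ t ∈ range M, Complex.normSq (G.eval (ζ ^ t)) : ℝ) : ℂ)
        = (((M : ℝ) * ∑ s ∈ range M, Complex.normSq (G.coeff s) : ℝ) : ℂ) := by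
      push_cast
      exact hp
    exact_mod_cast this
  have hne : (range M).Nonempty := ⟨0, mem_range.mpr hM0⟩
  obtain ⟨t, _, ht⟩ := Finset.exists_le_of_sum_le hne
    (f := fun _ => ∑ s ∈ range M, Complex.normSq (G.coeff s))
    (g := fun t => Complex.normSq (G.eval (ζ ^ t)))
    (by rw [hreal, Finset.sum_const, card_range, nsmul_eq_mul])
  refine ⟨ζ ^ t, ?_, ht⟩
  rw [norm_pow, hζ.norm'_eq_one hM0.ne', one_pow]

end Vale.Agent.Lib.P110.H16
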