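import Mathlib
import Vale.Agent.Lib.P110.H16.Parseval

namespace Vale.Agent.Lib.P110.H16

open Finset Polynomial

/-- The polynomial with coefficients `ε 0, ..., ε (N-1)`. -/
noncomputable def litP (N : ℕ) (ε : ℕ → ℤ) : ℤ[X] := ∑ k ∈ range N, C (ε k) * X ^ k

/-- Its reversal. -/
noncomputable def litR (N : ℕ) (ε : ℕ → ℤ) : ℤ[X] := ∑ k ∈ range N, C (ε k) * X ^ (N - 1 - k)

/-- The polynomial whose value at a point `z` of the unit circle is
`z ^ (N - 1) * (|P z| ^ 2 - N)`. -/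
noncomputable def litG (N : ℕ) (ε : ℕ → ℤ) : ℤ[X] :=
  litP N ε * litR N ε - C (N : ℤ) * X ^ (N - 1)

lemma natDegree_litP (N : ℕ) (ε : ℕ → ℤ) : (litP N ε).natDegree ≤ N - 1 := by
  unfold litP
  refine Polynomial.natDegree_sum_le_of_forall_le _ _ fun k hk => ?_
  have hk' := mem_range.mp hk
  exact (natDegree_C_mul_X_pow_le _ _).trans (by omega)

lemma natDegree_litR (N : ℕ) (ε : ℕ → ℤ) : (litR N ε).natDegree ≤ N - 1 := by
  unfold litR
  refine Polynomial.natDegree_sum_le_of_forall_le _ _ fun k _ => ?_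
  exact (natDegree_C_mul_X_pow_le _ _).trans (by omega)

lemma natDegree_litG (N : ℕ) (hN : 1 ≤ N) (ε : ℕ → ℤ) : (litG N ε).natDegree < 2 * N := by
  unfold litG
  have h1 : (litP N ε * litR N ε).natDegree ≤ (N - 1) + (N - 1) :=
    natDegree_mul_le.trans (add_le_add (natDegree_litP N ε) (natDegree_litR N ε))
  have h2 : (C (N : ℤ) * X ^ (N - 1)).natDegree ≤ N - 1 := natDegree_C_mul_X_pow_le _ _
  have h3 := natDegree_sub_le (litP N ε * litR N ε) (C (N : ℤ) * X ^ (N - 1))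
  have h4 : max (litP N ε * litR N ε).natDegree (C (N : ℤ) * X ^ (N - 1)).natDegree
      ≤ (N - 1) + (N - 1) := max_le h1 (h2.trans (by omega))
  omega

lemma map_litP (N : ℕ) (ε : ℕ → ℤ) (hε : ∀ k < N, ε k = 1 ∨ ε k = -1) :
    (litP N ε).map (Int.castRingHom (ZMod 2)) = ∑ k ∈ range N, (X : (ZMod 2)[X]) ^ k := by
  unfold litP
  rw [Polynomial.map_sum]
  refine Finset.sum_congr rfl fun k hk => ?_
  have h1 : (Int.castRingHom (ZMod 2)) (ε k) = 1 := by
    rcases hε k (mem_range.mp hk) with h | h <;> rw [h] <;> decide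
  rw [Polynomial.map_mul, Polynomial.map_C, Polynomial.map_pow, Polynomial.map_X, h1, map_one,
    one_mul]

lemma map_litR (N : ℕ) (ε : ℕ → ℤ) (hε : ∀ k < N, ε k = 1 ∨ ε k = -1) :
    (litR N ε).map (Int.castRingHom (ZMod 2)) = ∑ k ∈ range N, (X : (ZMod 2)[X]) ^ k := by
  unfold litR
  rw [Polynomial.map_sum]
  rw [← Finset.sum_range_reflect (fun k => (X : (ZMod 2)[X]) ^ k) N]
  refine Finset.sum_congr rfl fun k hk => ?_
  have h1 : (Int.castRingHom (ZMod 2)) (ε k) = 1 := by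
    rcases hε k (mem_range.mp hk) with h | h <;> rw [h] <;> decide
  rw [Polynomial.map_mul, Polynomial.map_C, Polynomial.map_pow, Polynomial.map_X, h1, map_one,
    one_mul]

/-- The even coefficients of `P * P^rev` are odd integers. -/
lemma coeff_prod_ne_zero (N : ℕ) (ε : ℕ → ℤ) (hε : ∀ k < N, ε k = 1 ∨ ε k = -1) (j : ℕ)
    (hj : j < N) : (litP N ε * litR N ε).coeff (2 * j) ≠ 0 := by
  intro h0
  have h1 : ((litP N ε * litR N ε).map (Int.castRingHom (ZMod 2))).coeff (2 * j) = 0 := by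
    rw [Polynomial.coeff_map, h0, map_zero]
  have : Fact (Nat.Prime 2) := ⟨Nat.prime_two⟩
  have h2 : (litP N ε * litR N ε).map (Int.castRingHom (ZMod 2))
      = ∑ k ∈ range N, ((X : (ZMod 2)[X]) ^ k) ^ 2 := by
    rw [Polynomial.map_mul, map_litP N ε hε, map_litR N ε hε, ← sq, sum_pow_char 2]
  rw [h2, Polynomial.finsetSum_coeff] at h1
  have h3 : ∀ k ∈ range N, (((X : (ZMod 2)[X]) ^ k) ^ 2).coeff (2 * j)
      = if k = j then (1 : ZMod 2) else 0 := by
    intro k _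
    rw [← pow_mul, Polynomial.coeff_X_pow]
    by_cases hkj : k = j
    · subst hkj
      rw [if_pos (by ring), if_pos rfl]
    · rw [if_neg (by omega), if_neg hkj]
  rw [Finset.sum_congr rfl h3, Finset.sum_ite_eq', if_pos (mem_range.mpr hj)] at h1
  exact one_ne_zero h1

lemma coeff_litG (N : ℕ) (ε : ℕ → ℤ) (s : ℕ) (hs : s ≠ N - 1) :
    (litG N ε).coeff s = (litP N ε * litR N ε).coeff s := by
  unfold litG
  rw [Polynomial.coeff_sub, Polynomial.coeff_C_mul, Polynomial.coeff_X_pow, if_neg hs, mul_zero,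
    sub_zero]

/-- The squares of the coefficients of `litG` sum to at least `N - 1`. -/
lemma sum_sq_coeff (N : ℕ) (hN : 1 ≤ N) (ε : ℕ → ℤ) (hε : ∀ k < N, ε k = 1 ∨ ε k = -1) :
    ((N : ℤ) - 1) ≤ ∑ s ∈ range (2 * N), ((litG N ε).coeff s) ^ 2 := by
  set S : Finset ℕ := (range N).erase ((N - 1) / 2) with hS
  have hcard : (S.card : ℤ) = (N : ℤ) - 1 := by
    rw [hS, Finset.card_erase_of_mem (mem_range.mpr (by omega)), card_range]
    push_cast [Nat.cast_sub hN]
    ring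
  have hinj : Set.InjOn (fun k : ℕ => 2 * k) (S : Set ℕ) := by
    intro a _ b _ hab
    simp only at hab
    omega
  have hsub : S.image (fun k : ℕ => 2 * k) ⊆ range (2 * N) := by
    intro s hs
    obtain ⟨k, hk, rfl⟩ := Finset.mem_image.mp hs
    have := mem_range.mp (Finset.mem_of_mem_erase hk)
    exact mem_range.mpr (by omega)
  have h1 : ∑ s ∈ S.image (fun k : ℕ => 2 * k), ((litG N ε).coeff s) ^ 2
      ≤ ∑ s ∈ range (2 * N), ((litG N ε).coeff s) ^ 2 :=
    Finset.sum_le_sum_of_subset_of_nonneg hsub fun _ _ _ => sq_nonneg _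
  rw [Finset.sum_image hinj] at h1
  have h2 : ∑ k ∈ S, (1 : ℤ) ≤ ∑ k ∈ S, ((litG N ε).coeff (2 * k)) ^ 2 := by
    refine Finset.sum_le_sum fun k hk => ?_
    have hkN := mem_range.mp (Finset.mem_of_mem_erase hk)
    have hkm : k ≠ (N - 1) / 2 := Finset.ne_of_mem_erase hk
    rw [coeff_litG N ε (2 * k) (by omega)]
    have hne := coeff_prod_ne_zero N ε hε k hkN
    have : 0 < ((litP N ε * litR N ε).coeff (2 * k)) ^ 2 := by positivity
    omega
  rw [Finset.sum_const, nsmul_eq_mul, mul_one, hcard] at h2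
  exact h2.trans h1

/-- Value of `litG` on the unit circle. -/
lemma eval_litG (N : ℕ) (hN : 1 ≤ N) (ε : ℕ → ℤ) (z : ℂ) (hz : ‖z‖ = 1) :
    ((litG N ε).map (Int.castRingHom ℂ)).eval z
      = z ^ (N - 1) *
        (((Complex.normSq (∑ k ∈ range N, (ε k : ℂ) * z ^ k) : ℝ) : ℂ) - (N : ℂ)) := by
  have hzz : z * (starRingEnd ℂ) z = 1 := by
    rw [Complex.mul_conj, Complex.normSq_eq_norm_sq, hz]
    norm_num
  have hR : ∑ k ∈ range N, (ε k : ℂ) * z ^ (N - 1 - k)
      = z ^ (N - 1) * (starRingEnd ℂ) (∑ k ∈ range N, (ε k : ℂ) * z ^ k) := by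
    rw [map_sum, Finset.mul_sum]
    refine Finset.sum_congr rfl fun k hk => ?_
    have hk' := mem_range.mp hk
    have h1 : z ^ (N - 1) = z ^ (N - 1 - k) * z ^ k := by
      rw [← pow_add]
      congr 1
      omega
    rw [map_mul, map_pow, map_intCast, h1]
    have h2 : z ^ k * (starRingEnd ℂ) z ^ k = 1 := by
      rw [← mul_pow, hzz, one_pow]
    calc (ε k : ℂ) * z ^ (N - 1 - k)
        = (ε k : ℂ) * z ^ (N - 1 - k) * (z ^ k * (starRingEnd ℂ) z ^ k) := by rw [h2, mul_one]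
      _ = z ^ (N - 1 - k) * z ^ k * ((ε k : ℂ) * (starRingEnd ℂ) z ^ k) := by ring
  have hev : ((litG N ε).map (Int.castRingHom ℂ)).eval z
      = (∑ k ∈ range N, (ε k : ℂ) * z ^ k) * (∑ k ∈ range N, (ε k : ℂ) * z ^ (N - 1 - k))
        - (N : ℂ) * z ^ (N - 1) := by
    unfold litG litP litR
    simp [Polynomial.map_sum, Polynomial.eval_finsetSum]
  rw [hev, hR, ← Complex.mul_conj]
  ring

end Vale.Agent.Lib.P110.H16
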